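import Vale.Agent.P096.III.Conj.Main

/-!
# P096, conjugation: the common centre

If the tower is common and its relative commutant in `M` is the centre, then its relative commutant
in a close `N` sharing the centre of `M` is that centre too, and the centres agree.
-/

namespace Vale.Agent.P096.III.Conj

open scoped Topology
open Filter

universe u

variable {H : Type u} [NormedAddCommGroup H] [InnerProductSpace ℂ H] [CompleteSpace H]
variable {K : ℕ → Finset (H →L[ℂ] H)} {M N : VonNeumannAlgebra H}

/-- Whatever a generating set of `M` determines lies in every algebra containing that set. -/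
theorem mem_of_generated {S : Set (H →L[ℂ] H)} (hS : ∀ g ∈ S, g ∈ N) {z : H →L[ℂ] H}
    (hz : ∀ y, (∀ g ∈ S, Commute y g) → Commute y z) : z ∈ N := by
  rw [← VonNeumannAlgebra.commutant_commutant N]
  refine VonNeumannAlgebra.mem_commutant_iff.2 fun y hy => (hz y fun g hg => ?_).eq
  exact (VonNeumannAlgebra.mem_commutant_iff.1 hy g (hS g hg)).symm

/-- An element commuting with a common tower is near an element of `M` commuting with it. -/
theorem exists_near_relComm [Nontrivial H] (hK : IsTower K) (hKM : ∀ g ∈ carrier K, g ∈ M)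
    {δ : ℝ} (hN : BallNear N M δ) {x : H →L[ℂ] H} (hx : x ∈ N)
    (hxK : ∀ g ∈ carrier K, Commute x g) :
    ∃ a ∈ M, (∀ g ∈ carrier K, Commute a g) ∧ ‖x - a‖ ≤ δ * ‖x‖ := by
  obtain ⟨y, hy, -, hxy⟩ := Linear.exists_near_of_ball hN hx
  obtain ⟨a, ha⟩ := exists_meanTo hK (f := fun g => g * y * star g) (c := ‖y‖) fun g hg => by
    refine (norm_mul_le _ _).trans ((mul_le_mul ((norm_mul_le _ _).trans
      (mul_le_mul (norm_unitary_le (hK.carrier_unit hg)) le_rfl (norm_nonneg _) zero_le_one))
      ((norm_star g).trans_le (norm_unitary_le (hK.carrier_unit hg))) (norm_nonneg _)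
      (by positivity)).trans_eq (by ring))
  refine ⟨a, ha.mem M fun g hg => mul_mem (mul_mem (hKM g hg) hy) (star_mem (hKM g hg)),
    fun g hg => ?_, ?_⟩
  · have h := ((ha.mul_right g).translate hK hg).unique ((ha.mul_left g).congr fun h hh => ?_)
    · exact h
    · rw [star_mul, show g * h * y * (star h * star g) * g = g * h * y * star h * (star g * g) by
        noncomm_ring, (hK.carrier_unit hg).1, mul_one]
      noncomm_ring
  · refine (((MeanTo.const hK x).sub ha).congr (f' := fun g => g * (x - y) * star g) fun g hg => ?_)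
      |>.norm_le hK ((norm_nonneg _).trans hxy) fun g hg => ?_
    · rw [mul_sub, sub_mul, ← (hxK g hg).eq, mul_assoc x, (hK.carrier_unit hg).2, mul_one]
    · refine (norm_mul_le _ _).trans ((mul_le_mul ((norm_mul_le _ _).trans
        (mul_le_mul (norm_unitary_le (hK.carrier_unit hg)) hxy (norm_nonneg _) zero_le_one))
        ((norm_star g).trans_le (norm_unitary_le (hK.carrier_unit hg))) (norm_nonneg _)
        (mul_nonneg zero_le_one ((norm_nonneg _).trans hxy))).trans_eq (by ring))

/-- The relative commutant of the common tower in `N` is the centre of `M`, and of `N`. -/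
theorem relComm_eq_centre (hK : IsTower K) (hKM : ∀ g ∈ carrier K, g ∈ M)
    (hKN : ∀ g ∈ carrier K, g ∈ N) {δ : ℝ} (hδ : δ < 1) (hN : BallNear N M δ)
    (hrel : ∀ a ∈ M, (∀ g ∈ carrier K, Commute a g) → a ∈ M.commutant)
    (hcen : ∀ z ∈ M, z ∈ M.commutant → z ∈ N ∧ z ∈ N.commutant) :
    (∀ x ∈ N, (∀ g ∈ carrier K, Commute x g) → x ∈ M ∧ x ∈ M.commutant ∧ x ∈ N.commutant) ∧
      ∀ x, (x ∈ N ∧ x ∈ N.commutant) ↔ (x ∈ M ∧ x ∈ M.commutant) := by
  suffices key : ∀ x ∈ N, (∀ g ∈ carrier K, Commute x g) → x ∈ M ∧ x ∈ M.commutant by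
    refine ⟨fun x hx hxK => ⟨(key x hx hxK).1, (key x hx hxK).2,
      (hcen x (key x hx hxK).1 (key x hx hxK).2).2⟩, fun x => ⟨fun hx => key x hx.1 fun g hg => ?_,
      fun hx => hcen x hx.1 hx.2⟩⟩
    exact (VonNeumannAlgebra.mem_commutant_iff.1 hx.2 g (hKN g hg)).symm
  intro x hx hxK
  rcases subsingleton_or_nontrivial H with hH | hH
  · rw [Subsingleton.elim x 0]
    exact ⟨zero_mem M, zero_mem M.commutant⟩
  set Z : Set (H →L[ℂ] H) := (M : Set _) ∩ (M.commutant : Set _) with hZ
  have hne : Z.Nonempty := ⟨0, zero_mem M, zero_mem M.commutant⟩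
  have hcl : IsClosed Z :=
    (Vale.Agent.P082.isClosed_alg M).inter (Vale.Agent.P082.isClosed_alg M.commutant)
  suffices h0 : Metric.infDist x Z = 0 from (hcl.mem_iff_infDist_zero hne).2 h0
  by_contra h0
  have hd : 0 < Metric.infDist x Z := lt_of_le_of_ne Metric.infDist_nonneg (Ne.symm h0)
  set d := Metric.infDist x Z
  have hd' : d < d / max δ (1 / 2) := by
    rw [lt_div_iff₀ (by positivity)]
    exact mul_lt_of_lt_one_right hd (max_lt hδ (by norm_num))
  obtain ⟨z, hz, hxz⟩ := (Metric.infDist_lt_iff hne).1 hd'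
  have hzN := hcen z hz.1 hz.2
  have hzK : ∀ g ∈ carrier K, Commute z g := fun g hg =>
    (VonNeumannAlgebra.mem_commutant_iff.1 hz.2 g (hKM g hg)).symm
  obtain ⟨a, ha, haK, hxa⟩ := exists_near_relComm hK hKM hN (sub_mem hx hzN.1)
    fun g hg => (hxK g hg).sub_left (hzK g hg)
  have hle : d ≤ ‖(x - z) - a‖ := by
    have := Metric.infDist_le_dist_of_mem (x := x) (s := Z) (y := z + a)
      ⟨add_mem hz.1 ha, add_mem hz.2 (hrel a ha haK)⟩
    rwa [dist_eq_norm, ← sub_sub] at this
  rw [lt_div_iff₀ (by positivity), dist_eq_norm] at hxz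
  have := mul_le_mul_of_nonneg_right (le_max_left δ (1 / 2)) (norm_nonneg (x - z))
  linarith

end Vale.Agent.P096.III.Conj
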