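import Vale.Agent.P096.III.Conj.Stab
import Vale.Agent.P096.Linear.Main

/-!
# P096, conjugation: common amenable frames for close algebras

`K` is a tower in `M`, `K'` one in `M'`. A unitary near one carries both into `N` and `N'`, so that
after conjugating `N` the two algebras share them.
-/

namespace Vale.Agent.P096.III.Conj

open scoped Topology
open Filter

universe u

variable {H : Type u} [NormedAddCommGroup H] [InnerProductSpace ℂ H] [CompleteSpace H]
variable {K : ℕ → Finset (H →L[ℂ] H)}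

/-- A tower near `N` is carried into `N` by a unitary near one, which commutes with whatever
commutes with the tower and with `N`. -/
theorem exists_conj_tower [Nontrivial H] (hK : IsTower K) (N : VonNeumannAlgebra H) {δ : ℝ}
    (hδ0 : 0 ≤ δ) (hδ : δ ≤ 1 / 12000)
    (hnear : ∀ g ∈ carrier K, ∃ y ∈ N, ‖g - y‖ ≤ δ) :
    ∃ u ∈ unitary (H →L[ℂ] H), ‖u - 1‖ ≤ 5000 * δ ∧ (∀ g ∈ carrier K, u * g * star u ∈ N) ∧
      ∀ y ∈ N.commutant, (∀ g ∈ carrier K, Commute y g) → Commute u y := by
  classical
  have hlift : ∀ g ∈ carrier K, ∃ g' ∈ unitary (H →L[ℂ] H), g' ∈ N ∧ ‖g' - g‖ ≤ 13 * δ :=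
    fun g hg => by
      obtain ⟨y, hy, hgy⟩ := hnear g hg
      have hg1 := norm_unitary_le (hK.carrier_unit hg)
      have hy1 : ‖y‖ ≤ 1 + δ := (norm_le_norm_add_norm_sub g y).trans (add_le_add hg1 hgy)
      have key : ∀ a b : H →L[ℂ] H, ‖a‖ ≤ 1 + δ → ‖b‖ ≤ 1 → ‖a - b‖ ≤ δ → star b * b = 1 →
          ‖star a * a - 1‖ ≤ 3 * δ := fun a b ha hb hab hbb => by
        have e : star a * a - 1 = star a * (a - b) + star (a - b) * b := by
          rw [mul_sub, star_sub, sub_mul, hbb]; abel
        rw [e]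
        refine (norm_add_le _ _).trans ?_
        have h1 := (norm_mul_le (star a) (a - b)).trans
          (mul_le_mul ((norm_star _).trans_le ha) hab (norm_nonneg _) (by linarith))
        have h2 := (norm_mul_le (star (a - b)) b).trans
          (mul_le_mul ((norm_star _).trans_le hab) hb (norm_nonneg _) hδ0)
        nlinarith
      obtain ⟨g', hu, hN, hd⟩ := exists_unitary_mem hy (d := 3 * δ) (by linarith)
        (key y g hy1 hg1 (by rwa [norm_sub_rev]) (hK.carrier_unit hg).1)
        (by
          have := key (star y) (star g) (by rwa [norm_star]) (by rwa [norm_star])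
            (by rwa [← star_sub, norm_star, norm_sub_rev])
            (by rw [star_star]; exact (hK.carrier_unit hg).2)
          rwa [star_star] at this)
      refine ⟨g', hu, hN, (norm_sub_le_norm_sub_add_norm_sub _ y _).trans ?_⟩
      rw [norm_sub_rev y g]
      linarith
  choose! v hvu hvN hvg using hlift
  have hd : GDefect K v (52 * δ) := fun g hg h hh => by
    have hgh := hK.carrier_mul hg hh
    have e : v g * v h - v (g * h) =
        (v g - g) * v h + g * (v h - h) + (g * h - v (g * h)) := by noncomm_ring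
    rw [e]
    refine (norm_add₃_le ..).trans ?_
    have t1 := (norm_mul_le (v g - g) (v h)).trans
      (mul_le_mul (hvg g hg) (norm_unitary_le (hvu h hh)) (norm_nonneg _) (by positivity))
    have t2 := (norm_mul_le g (v h - h)).trans
      (mul_le_mul (norm_unitary_le (hK.carrier_unit hg)) (hvg h hh) (norm_nonneg _) zero_le_one)
    have t3 := hvg _ hgh
    rw [norm_sub_rev] at t3
    linarith
  obtain ⟨θ, hθ, hmul, hθv⟩ := exists_hom hK ⟨hvu, hvN⟩ (by positivity) (by linarith) hd
  have hθ1 : θ 1 = 1 := by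
    have h := hmul 1 hK.carrier_one 1 hK.carrier_one
    have hu := hθ.unit 1 hK.carrier_one
    rw [one_mul] at h
    have := congrArg (star (θ 1) * ·) h
    simp only [← mul_assoc, hu.1, one_mul] at this
    exact this.symm
  have hnearθ : ∀ g ∈ carrier K, ‖θ g - g‖ ≤ 350 * δ := fun g hg =>
    (norm_sub_le_norm_sub_add_norm_sub _ (v g) _).trans
      ((add_le_add (hθv g hg) (hvg g hg)).trans (by linarith))
  obtain ⟨T, hT⟩ := exists_meanTo hK (f := fun h => θ h * star h) (c := 1) fun g hg =>
    norm_unitary_le (mul_mem (hθ.unit g hg) (Unitary.star_mem (hK.carrier_unit hg)))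
  have hT1 : ‖T - 1‖ ≤ 350 * δ := by
    refine (hT.sub (MeanTo.const hK 1)).norm_le hK (by positivity) fun g hg => ?_
    have e : θ g * star g - 1 = (θ g - g) * star g := by
      rw [sub_mul, (hK.carrier_unit hg).2]
    rw [e]
    refine (norm_mul_le _ _).trans ?_
    rw [norm_star]
    exact (mul_le_mul (hnearθ g hg) (norm_unitary_le (hK.carrier_unit hg)) (norm_nonneg _)
      (by positivity)).trans (mul_one _).le
  have hTg : ∀ g ∈ carrier K, T * g = θ g * T := fun g hg => by
    refine ((hT.mul_right g).translate hK hg).unique ((hT.mul_left (θ g)).congr fun h hh => ?_)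
    rw [hmul g hg h hh, star_mul, mul_assoc (θ g * θ h), mul_assoc (star h),
      (hK.carrier_unit hg).1, mul_one, mul_assoc]
  have hcomm : ∀ y, (∀ g ∈ carrier K, Commute y (θ g)) → (∀ g ∈ carrier K, Commute y g) →
      Commute T y := fun y h1 h2 => by
    refine (hT.mul_right y).unique ((hT.mul_left y).congr fun h hh => ?_)
    have h2' : Commute y (star h) := h2 _ (hK.carrier_star hh)
    exact ((h1 h hh).mul_right h2').eq
  obtain ⟨w, ⟨hu, hu'⟩, hu1, hwc⟩ := Linear.exists_polar hT1 (by linarith)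
  refine ⟨T * w, ⟨hu, hu'⟩, hu1.trans (by linarith), fun g hg => ?_, fun y hy hyg => ?_⟩
  · have hTs : star T * θ g = g * star T := by
      have h := congrArg star (hTg _ (hK.carrier_star hg))
      have hs : star (θ (star g)) = θ g := by
        have h3 := hmul _ (hK.carrier_star hg) g hg
        rw [(hK.carrier_unit hg).1, hθ1] at h3
        exact (left_inv_eq_right_inv (hθ.unit _ (hK.carrier_star hg)).1 h3.symm)
      rw [star_mul, star_mul, star_star, hs] at h
      exact h.symm
    have c2 : Commute (star T * T) g := by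
      show star T * T * g = g * (star T * T)
      rw [mul_assoc, hTg g hg, ← mul_assoc, hTs, mul_assoc]
    rw [mul_assoc T w g, (hwc g c2).eq, ← mul_assoc, hTg g hg, mul_assoc (θ g) T w, mul_assoc,
      hu', mul_one]
    exact hθ.mem g hg
  · have hyθ : ∀ g ∈ carrier K, Commute y (θ g) := fun g hg =>
      (VonNeumannAlgebra.mem_commutant_iff.1 hy _ (hθ.mem g hg)).symm
    have c1 := hcomm y hyθ hyg
    have hsy : star y ∈ N.commutant := star_mem hy
    have c1' := hcomm (star y) (fun g hg => (VonNeumannAlgebra.mem_commutant_iff.1 hsy _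
      (hθ.mem g hg)).symm) fun g hg => by
        have := (hyg _ (hK.carrier_star hg)).star_star
        rwa [star_star] at this
    have c2 : Commute (star T) y := by
      have := c1'.star_star
      rwa [star_star] at this
    exact c1.mul_left (hwc y (c2.mul_left c1))

/-- A tower in `M` and one in `M'` are carried into `N` and `N'` by one unitary near one. -/
theorem exists_conj_frame :
    ∃ C δ₀ : ℝ, 0 ≤ C ∧ 0 < δ₀ ∧
      ∀ (H : Type u) [NormedAddCommGroup H] [InnerProductSpace ℂ H] [CompleteSpace H]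
        (M N : VonNeumannAlgebra H) (K K' : ℕ → Finset (H →L[ℂ] H)) (δ : ℝ),
        IsTower K → IsTower K' → (∀ g ∈ carrier K, g ∈ M) → (∀ g ∈ carrier K', g ∈ M.commutant) →
        0 ≤ δ → δ ≤ δ₀ → Near M N δ →
        ∃ u ∈ unitary (H →L[ℂ] H), ‖u - 1‖ ≤ C * δ ∧
          (∀ g ∈ carrier K, u * g * star u ∈ N) ∧
          ∀ g ∈ carrier K', u * g * star u ∈ N.commutant := by
  classical
  obtain ⟨D, hD, hR⟩ := Linear.exists_near_commutant.{u}
  refine ⟨5000 + 5000 * (D + 10000), 1 / (12000 * (D + 10000)), by positivity, by positivity, ?_⟩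
  intro H _ _ _ M N K K' δ hK hK' hM hM' hδ0 hδ hN
  rcases subsingleton_or_nontrivial H with hH | hH
  · refine ⟨1, one_mem _, by rw [sub_self, norm_zero]; positivity, fun g _ => ?_, fun g _ => ?_⟩
    · rw [Subsingleton.elim (1 * g * star 1) (0 : H →L[ℂ] H)]; exact zero_mem N
    · rw [Subsingleton.elim (1 * g * star 1) (0 : H →L[ℂ] H)]; exact zero_mem N.commutant
  have hDδ : (D + 10000) * δ ≤ 1 / 12000 := by
    refine (mul_le_mul_of_nonneg_left hδ (by positivity)).trans_eq ?_
    field_simp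
  have hδ' : δ ≤ 1 / 12000 := le_trans (le_mul_of_one_le_left hδ0 (by linarith)) hDδ
  obtain ⟨u₁, hu₁, hn₁, hg₁, -⟩ := exists_conj_tower hK N hδ0 hδ' fun g hg => by
    obtain ⟨y, hy, -, hgy⟩ := hN.1 g (hM g hg) (norm_unitary_le (hK.carrier_unit hg))
    exact ⟨y, hy, hgy⟩
  set K₁ : ℕ → Finset (H →L[ℂ] H) := fun n => (K' n).image fun g => u₁ * g * star u₁ with hK₁
  have hcar : ∀ g ∈ carrier K₁, ∃ k ∈ carrier K', u₁ * k * star u₁ = g := by
    rintro g ⟨n, hg⟩
    obtain ⟨k, hk, e⟩ := Finset.mem_image.1 hg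
    exact ⟨k, ⟨n, hk⟩, e⟩
  have hT₁ : IsTower K₁ :=
    { one_mem := fun n => Finset.mem_image.2 ⟨1, hK'.one_mem n, by rw [mul_one, hu₁.2]⟩
      mul_mem := fun n a ha b hb => by
        obtain ⟨x, hx, rfl⟩ := Finset.mem_image.1 ha
        obtain ⟨y, hy, rfl⟩ := Finset.mem_image.1 hb
        refine Finset.mem_image.2 ⟨x * y, hK'.mul_mem n x hx y hy, ?_⟩
        rw [show u₁ * x * star u₁ * (u₁ * y * star u₁) = u₁ * x * (star u₁ * u₁) * y * star u₁ by
          noncomm_ring, hu₁.1, mul_one, mul_assoc u₁ x y]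
      star_mem := fun n a ha => by
        obtain ⟨x, hx, rfl⟩ := Finset.mem_image.1 ha
        refine Finset.mem_image.2 ⟨star x, hK'.star_mem n x hx, ?_⟩
        rw [star_mul, star_mul, star_star, mul_assoc]
      unit := fun n a ha => by
        obtain ⟨x, hx, rfl⟩ := Finset.mem_image.1 ha
        exact mul_mem (mul_mem hu₁ (hK'.unit n x hx)) (Unitary.star_mem hu₁)
      mono := fun n a ha => by
        obtain ⟨x, hx, rfl⟩ := Finset.mem_image.1 ha
        exact Finset.mem_image.2 ⟨x, hK'.mono n x hx, rfl⟩ }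
  obtain ⟨u₂, hu₂, hn₂, hg₂, hc₂⟩ := exists_conj_tower hT₁ N.commutant
    (δ := (D + 10000) * δ) (by positivity) hDδ fun g hg => by
      obtain ⟨k, hk, rfl⟩ := hcar g hg
      obtain ⟨y, hy, -, hky⟩ := (hR H M N δ hδ0 hN).1 k (hM' k hk)
        (norm_unitary_le (hK'.carrier_unit hk))
      refine ⟨y, hy, ?_⟩
      have hk1 := norm_unitary_le (hK'.carrier_unit hk)
      have hu1 : ‖star u₁‖ ≤ 1 := norm_unitary_le (Unitary.star_mem hu₁)
      have e : u₁ * k * star u₁ - y = (u₁ - 1) * k * star u₁ + k * star (u₁ - 1) + (k - y) := by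
        rw [star_sub, star_one]; noncomm_ring
      rw [e]
      refine (norm_add₃_le ..).trans ?_
      have t1 : ‖(u₁ - 1) * k * star u₁‖ ≤ 5000 * δ * 1 * 1 :=
        (norm_mul_le _ _).trans (mul_le_mul ((norm_mul_le _ _).trans
          (mul_le_mul hn₁ hk1 (norm_nonneg _) (by positivity))) hu1 (norm_nonneg _) (by positivity))
      have t2 : ‖k * star (u₁ - 1)‖ ≤ 1 * (5000 * δ) :=
        (norm_mul_le _ _).trans (mul_le_mul hk1 (by rw [norm_star]; exact hn₁) (norm_nonneg _)
          zero_le_one)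
      linarith
  refine ⟨u₂ * u₁, mul_mem hu₂ hu₁, ?_, fun g hg => ?_, fun g hg => ?_⟩
  · have e : u₂ * u₁ - 1 = (u₂ - 1) * u₁ + (u₁ - 1) := by noncomm_ring
    rw [e]
    refine (norm_add_le _ _).trans ?_
    have := (norm_mul_le (u₂ - 1) u₁).trans
      (mul_le_mul hn₂ (norm_unitary_le hu₁) (norm_nonneg _) (by positivity))
    linarith
  · have hy : u₁ * g * star u₁ ∈ N := hg₁ g hg
    have hc : Commute u₂ (u₁ * g * star u₁) := by
      refine hc₂ _ (by rwa [VonNeumannAlgebra.commutant_commutant]) fun x hx => ?_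
      obtain ⟨k, hk, rfl⟩ := hcar x hx
      have hgk : g * k = k * g := VonNeumannAlgebra.mem_commutant_iff.1 (hM' k hk) g (hM g hg)
      show u₁ * g * star u₁ * (u₁ * k * star u₁) = u₁ * k * star u₁ * (u₁ * g * star u₁)
      rw [show u₁ * g * star u₁ * (u₁ * k * star u₁) = u₁ * g * (star u₁ * u₁) * k * star u₁ by
        noncomm_ring, show u₁ * k * star u₁ * (u₁ * g * star u₁) =
        u₁ * k * (star u₁ * u₁) * g * star u₁ by noncomm_ring, hu₁.1, mul_one, mul_one,
        mul_assoc u₁ g k, hgk, mul_assoc u₁ k g]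
    rw [show u₂ * u₁ * g * star (u₂ * u₁) = u₂ * (u₁ * g * star u₁) * star u₂ by
      rw [star_mul]; noncomm_ring, hc.eq, mul_assoc, hu₂.2, mul_one]
    exact hy
  · rw [show u₂ * u₁ * g * star (u₂ * u₁) = u₂ * (u₁ * g * star u₁) * star u₂ by
      rw [star_mul]; noncomm_ring]
    obtain ⟨n, hn⟩ := hg
    exact hg₂ _ ⟨n, Finset.mem_image.2 ⟨g, hn, rfl⟩⟩

end Vale.Agent.P096.III.Conj
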