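import Vale.Agent.P096.Linear.Spatial
import Vale.Agent.P104.Similarity.Main

/-!
# P096, conjugation: towers of finite groups of unitaries and their means
-/

namespace Vale.Agent.P096.III.Conj

open scoped InnerProductSpace Topology
open Filter

universe u

variable {H : Type u} [NormedAddCommGroup H] [InnerProductSpace ℂ H] [CompleteSpace H]

/-- An increasing sequence of finite groups of unitaries. -/
structure IsTower (K : ℕ → Finset (H →L[ℂ] H)) : Prop where
  one_mem : ∀ n, 1 ∈ K n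
  mul_mem : ∀ n, ∀ a ∈ K n, ∀ b ∈ K n, a * b ∈ K n
  star_mem : ∀ n, ∀ a ∈ K n, star a ∈ K n
  unit : ∀ n, ∀ a ∈ K n, a ∈ unitary (H →L[ℂ] H)
  mono : ∀ n, ∀ a ∈ K n, a ∈ K (n + 1)

/-- The union of a tower. -/
def carrier (K : ℕ → Finset (H →L[ℂ] H)) : Set (H →L[ℂ] H) := {g | ∃ n, g ∈ K n}

variable {K : ℕ → Finset (H →L[ℂ] H)}

theorem IsTower.le (hK : IsTower K) {n m : ℕ} (h : n ≤ m) {a : H →L[ℂ] H} (ha : a ∈ K n) :
    a ∈ K m := by
  induction h with
  | refl => exact ha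
  | step _ ih => exact hK.mono _ _ ih

theorem IsTower.carrier_one (hK : IsTower K) : (1 : H →L[ℂ] H) ∈ carrier K := ⟨0, hK.one_mem 0⟩

theorem IsTower.carrier_mul (hK : IsTower K) {a b : H →L[ℂ] H} (ha : a ∈ carrier K)
    (hb : b ∈ carrier K) : a * b ∈ carrier K := by
  obtain ⟨n, ha⟩ := ha
  obtain ⟨m, hb⟩ := hb
  exact ⟨max n m, hK.mul_mem _ _ (hK.le (le_max_left n m) ha) _ (hK.le (le_max_right n m) hb)⟩

theorem IsTower.carrier_star (hK : IsTower K) {a : H →L[ℂ] H} (ha : a ∈ carrier K) :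
    star a ∈ carrier K := by
  obtain ⟨n, ha⟩ := ha
  exact ⟨n, hK.star_mem n a ha⟩

theorem IsTower.carrier_unit (hK : IsTower K) {a : H →L[ℂ] H} (ha : a ∈ carrier K) :
    a ∈ unitary (H →L[ℂ] H) := by
  obtain ⟨n, ha⟩ := ha
  exact hK.unit n a ha

/-- The average over a level. -/
noncomputable def levelAvg (K : ℕ → Finset (H →L[ℂ] H)) (n : ℕ)
    (f : (H →L[ℂ] H) → H →L[ℂ] H) : H →L[ℂ] H :=
  ((K n).card : ℂ)⁻¹ • ∑ g ∈ K n, f g

/-- An ultrafilter beyond every level. -/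
noncomputable def lev : Ultrafilter ℕ := Ultrafilter.of atTop

/-- The averages of `f` tend weakly to `a`. -/
def MeanTo (K : ℕ → Finset (H →L[ℂ] H)) (f : (H →L[ℂ] H) → H →L[ℂ] H) (a : H →L[ℂ] H) : Prop :=
  ∀ u v, Tendsto (fun n => ⟪u, levelAvg K n f v⟫_ℂ) lev (𝓝 ⟪u, a v⟫_ℂ)

theorem norm_levelAvg_le (hK : IsTower K) {f : (H →L[ℂ] H) → H →L[ℂ] H} {c : ℝ}
    (hf : ∀ g ∈ carrier K, ‖f g‖ ≤ c) (n : ℕ) : ‖levelAvg K n f‖ ≤ c := by
  have h0 : (0 : ℝ) < (K n).card := Nat.cast_pos.2 (Finset.card_pos.2 ⟨1, hK.one_mem n⟩)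
  rw [levelAvg, norm_smul, norm_inv, Complex.norm_natCast, inv_mul_le_iff₀ h0]
  refine (norm_sum_le _ _).trans ?_
  refine (Finset.sum_le_card_nsmul _ _ c fun g hg => hf g ⟨n, hg⟩).trans_eq ?_
  rw [nsmul_eq_mul]

theorem MeanTo.unique {f : (H →L[ℂ] H) → H →L[ℂ] H} {a b : H →L[ℂ] H} (ha : MeanTo K f a)
    (hb : MeanTo K f b) : a = b :=
  ContinuousLinearMap.ext fun v => ext_inner_left ℂ fun u => tendsto_nhds_unique (ha u v) (hb u v)

theorem MeanTo.norm_le (hK : IsTower K) {f : (H →L[ℂ] H) → H →L[ℂ] H} {a : H →L[ℂ] H} {c : ℝ}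
    (hc : 0 ≤ c) (hf : ∀ g ∈ carrier K, ‖f g‖ ≤ c) (ha : MeanTo K f a) : ‖a‖ ≤ c :=
  ContinuousLinearMap.opNorm_le_bound _ hc fun v => by
    by_cases h0 : ‖a v‖ = 0
    · rw [h0]; positivity
    refine le_of_mul_le_mul_left ?_ (lt_of_le_of_ne (norm_nonneg (a v)) (Ne.symm h0))
    have h1 : ‖⟪a v, a v⟫_ℂ‖ ≤ ‖a v‖ * (c * ‖v‖) := le_of_tendsto' (ha (a v) v).norm fun n =>
      (norm_inner_le_norm _ _).trans (mul_le_mul_of_nonneg_left (((levelAvg K n f).le_opNorm v).trans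
        (mul_le_mul_of_nonneg_right (norm_levelAvg_le hK hf n) (norm_nonneg v))) (norm_nonneg _))
    rwa [inner_self_eq_norm_sq_to_K, norm_pow, RCLike.norm_ofReal, abs_norm, sq] at h1

theorem exists_meanTo (hK : IsTower K) {f : (H →L[ℂ] H) → H →L[ℂ] H} {c : ℝ}
    (hf : ∀ g ∈ carrier K, ‖f g‖ ≤ c) : ∃ a, MeanTo K f a :=
  Vale.Agent.P104.Similarity.exists_wlim lev _ (norm_levelAvg_le hK hf)

theorem MeanTo.congr {f f' : (H →L[ℂ] H) → H →L[ℂ] H} {a : H →L[ℂ] H} (ha : MeanTo K f a)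
    (h : ∀ g ∈ carrier K, f g = f' g) : MeanTo K f' a := fun u v => by
  refine (ha u v).congr fun n => ?_
  rw [levelAvg, levelAvg, Finset.sum_congr rfl fun g hg => h g ⟨n, hg⟩]

theorem MeanTo.const (hK : IsTower K) (a : H →L[ℂ] H) : MeanTo K (fun _ => a) a := fun u v => by
  refine tendsto_const_nhds.congr fun n => ?_
  rw [levelAvg, Finset.sum_const, ← Nat.cast_smul_eq_nsmul ℂ, smul_smul, inv_mul_cancel₀
    (Nat.cast_ne_zero.2 (Finset.card_ne_zero.2 ⟨1, hK.one_mem n⟩)), one_smul]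

theorem MeanTo.add {f f' : (H →L[ℂ] H) → H →L[ℂ] H} {a a' : H →L[ℂ] H} (ha : MeanTo K f a)
    (ha' : MeanTo K f' a') : MeanTo K (fun g => f g + f' g) (a + a') := fun u v => by
  have e : ∀ n, levelAvg K n (fun g => f g + f' g) = levelAvg K n f + levelAvg K n f' := fun n => by
    simp only [levelAvg, Finset.sum_add_distrib, smul_add]
  simpa only [e, add_apply, inner_add_right] using (ha u v).add (ha' u v)

theorem MeanTo.neg {f : (H →L[ℂ] H) → H →L[ℂ] H} {a : H →L[ℂ] H} (ha : MeanTo K f a) :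
    MeanTo K (fun g => -f g) (-a) := fun u v => by
  have e : ∀ n, levelAvg K n (fun g => -f g) = -levelAvg K n f := fun n => by
    simp only [levelAvg, Finset.sum_neg_distrib, smul_neg]
  simpa only [e, neg_apply, inner_neg_right] using (ha u v).neg

theorem MeanTo.sub {f f' : (H →L[ℂ] H) → H →L[ℂ] H} {a a' : H →L[ℂ] H} (ha : MeanTo K f a)
    (ha' : MeanTo K f' a') : MeanTo K (fun g => f g - f' g) (a - a') := by
  simpa only [sub_eq_add_neg] using ha.add ha'.neg

theorem MeanTo.mul_left {f : (H →L[ℂ] H) → H →L[ℂ] H} {a : H →L[ℂ] H} (ha : MeanTo K f a)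
    (c : H →L[ℂ] H) : MeanTo K (fun g => c * f g) (c * a) := fun u v => by
  have e : ∀ n, levelAvg K n (fun g => c * f g) = c * levelAvg K n f := fun n => by
    simp only [levelAvg, mul_smul_comm, Finset.mul_sum]
  simpa only [e, mul_apply_eq_comp, ← ContinuousLinearMap.adjoint_inner_left] using
    ha (ContinuousLinearMap.adjoint c u) v

theorem MeanTo.mul_right {f : (H →L[ℂ] H) → H →L[ℂ] H} {a : H →L[ℂ] H} (ha : MeanTo K f a)
    (c : H →L[ℂ] H) : MeanTo K (fun g => f g * c) (a * c) := fun u v => by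
  have e : ∀ n, levelAvg K n (fun g => f g * c) = levelAvg K n f * c := fun n => by
    simp only [levelAvg, smul_mul_assoc, Finset.sum_mul]
  simpa only [e, mul_apply_eq_comp] using ha u (c v)

theorem MeanTo.star {f : (H →L[ℂ] H) → H →L[ℂ] H} {a : H →L[ℂ] H} (ha : MeanTo K f a) :
    MeanTo K (fun g => star (f g)) (star a) := fun u v => by
  have e : ∀ n, levelAvg K n (fun g => Star.star (f g)) = Star.star (levelAvg K n f) := fun n => by
    simp only [levelAvg, star_smul, star_sum, star_inv₀, star_natCast]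
  have h := (Complex.continuous_conj.tendsto _).comp (ha v u)
  rw [inner_conj_symm] at h
  rw [ContinuousLinearMap.star_eq_adjoint, ContinuousLinearMap.adjoint_inner_right]
  refine h.congr fun n => ?_
  rw [Function.comp_apply, e n, ContinuousLinearMap.star_eq_adjoint,
    ContinuousLinearMap.adjoint_inner_right, inner_conj_symm]

theorem MeanTo.mem (N : VonNeumannAlgebra H) {f : (H →L[ℂ] H) → H →L[ℂ] H} {a : H →L[ℂ] H}
    (hf : ∀ g ∈ carrier K, f g ∈ N) (ha : MeanTo K f a) : a ∈ N := by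
  rw [← VonNeumannAlgebra.commutant_commutant N]
  refine VonNeumannAlgebra.mem_commutant_iff.2 fun y hy => ?_
  exact (ha.mul_left y).unique ((ha.mul_right y).congr fun g hg =>
    VonNeumannAlgebra.mem_commutant_iff.1 hy (f g) (hf g hg))

/-- Left translation does not change the mean. -/
theorem MeanTo.translate (hK : IsTower K) {f : (H →L[ℂ] H) → H →L[ℂ] H} {a g : H →L[ℂ] H}
    (hg : g ∈ carrier K) (ha : MeanTo K f a) : MeanTo K (fun h => f (g * h)) a := fun u v => by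
  obtain ⟨n₀, hn₀⟩ := hg
  refine (ha u v).congr' (Ultrafilter.of_le atTop (eventually_atTop.2 ⟨n₀, fun n hn => ?_⟩))
  have hgn := hK.le hn hn₀
  have hu := hK.unit n g hgn
  show ⟪u, levelAvg K n f v⟫_ℂ = ⟪u, levelAvg K n (fun h => f (g * h)) v⟫_ℂ
  rw [levelAvg, levelAvg, Finset.sum_bij' (fun h _ => Star.star g * h) (fun h _ => g * h)
    (fun h hh => hK.mul_mem n _ (hK.star_mem n g hgn) h hh) (fun h hh => hK.mul_mem n g hgn h hh)
    (fun h _ => by rw [← mul_assoc, hu.2, one_mul])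
    (fun h _ => by rw [← mul_assoc, hu.1, one_mul])
    (g := fun h => f (g * h)) (fun h _ => by rw [← mul_assoc, hu.2, one_mul])]

end Vale.Agent.P096.III.Conj
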