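import Vale.Agent.P096.III.Conj.Mean

/-!
# P096, conjugation: near representations of a tower are near representations
-/

namespace Vale.Agent.P096.III.Conj

open scoped Topology
open Filter

universe u

variable {H : Type u} [NormedAddCommGroup H] [InnerProductSpace ℂ H] [CompleteSpace H]
variable {K : ℕ → Finset (H →L[ℂ] H)} {N : VonNeumannAlgebra H}

/-- An inverse square root near one. -/
theorem exists_inv_sqrt [Nontrivial H] {z : H →L[ℂ] H} (hz : IsSelfAdjoint z) {d : ℝ}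
    (hd : d ≤ 1 / 2) (hz1 : ‖z - 1‖ ≤ d) :
    ∃ w : H →L[ℂ] H, IsSelfAdjoint w ∧ w * z * w = 1 ∧ ‖w - 1‖ ≤ 2 * d ∧
      ∀ y, Commute z y → Commute w y := by
  have hd0 : 0 ≤ d := (norm_nonneg _).trans hz1
  have hspec : ∀ t ∈ spectrum ℝ z, |t - 1| ≤ d := fun t ht => by
    have h : t - 1 ∈ spectrum ℝ (z - 1) := by
      have := spectrum.sub_singleton_eq z (1 : ℝ)
      rw [map_one] at this
      rw [← this]
      exact Set.sub_mem_sub ht rfl
    exact (spectrum.norm_le_norm_of_mem h).trans hz1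
  have hpos : ∀ t ∈ spectrum ℝ z, 1 / 2 ≤ t := fun t ht => by
    linarith [(abs_le.1 (hspec t ht)).1]
  set φ : ℝ → ℝ := fun t => (Real.sqrt t)⁻¹ with hφ
  have hcont : ContinuousOn φ (spectrum ℝ z) :=
    (Real.continuous_sqrt.continuousOn).inv₀ fun t ht =>
      (Real.sqrt_pos.2 (by linarith [hpos t ht])).ne'
  refine ⟨cfc φ z, cfc_predicate _ _, ?_, ?_, fun y hy => hy.cfc_real φ⟩
  · have h1 : cfc φ z * z = cfc (fun t => φ t * t) z := by
      rw [cfc_mul φ (fun t => t) z hcont continuousOn_id, cfc_id' ℝ z hz]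
    rw [h1, ← cfc_mul (fun t => φ t * t) φ z (hcont.mul continuousOn_id) hcont, ← cfc_one ℝ z hz]
    refine cfc_congr fun t ht => ?_
    have h0 : 0 ≤ t := by linarith [hpos t ht]
    have hq : Real.sqrt t ≠ 0 := (Real.sqrt_pos.2 (by linarith [hpos t ht])).ne'
    show (Real.sqrt t)⁻¹ * t * (Real.sqrt t)⁻¹ = 1
    field_simp
    rw [Real.sq_sqrt h0]
  · rw [← cfc_one ℝ z hz, ← cfc_sub φ 1 z hcont continuousOn_const]
    refine norm_cfc_le (by positivity) fun t ht => ?_
    have h2 := hpos t ht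
    have hq : 1 / 2 ≤ Real.sqrt t := Real.le_sqrt_of_sq_le (by linarith)
    rw [Real.norm_eq_abs, Pi.one_apply, hφ]
    have e1 : (Real.sqrt t)⁻¹ - 1 = (1 - t) / (Real.sqrt t * (1 + Real.sqrt t)) := by
      have := Real.sq_sqrt (show 0 ≤ t by linarith)
      have hq0 : Real.sqrt t ≠ 0 := by linarith
      field_simp
      linear_combination -this
    simp only [e1, abs_div, abs_sub_comm (1 : ℝ) t]
    rw [abs_of_pos (show 0 < Real.sqrt t * (1 + Real.sqrt t) by positivity),
      div_le_iff₀ (by positivity)]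
    have := hspec t ht
    nlinarith [mul_le_mul hq (show (1 : ℝ) ≤ 1 + Real.sqrt t by linarith) zero_le_one
      (Real.sqrt_nonneg t)]

/-- An almost unitary element of `N` is near a unitary of `N`. -/
theorem exists_unitary_mem [Nontrivial H] {a : H →L[ℂ] H} (ha : a ∈ N) {d : ℝ} (hd : d ≤ 1 / 4)
    (h1 : ‖star a * a - 1‖ ≤ d) (h2 : ‖a * star a - 1‖ ≤ d) :
    ∃ g ∈ unitary (H →L[ℂ] H), g ∈ N ∧ ‖g - a‖ ≤ 4 * d := by
  have hd0 : 0 ≤ d := (norm_nonneg _).trans h1
  obtain ⟨w, hw, hwaw, hw1, hwc⟩ :=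
    exists_inv_sqrt (IsSelfAdjoint.star_mul_self a) (by linarith) h1
  have hgg : star (a * w) * (a * w) = 1 := by
    rw [star_mul, hw.star_eq, mul_assoc, ← mul_assoc (star a), ← mul_assoc, hwaw]
  obtain ⟨p, hp⟩ : ∃ p, a * star a * p = 1 :=
    IsUnit.exists_right_inv (sub_sub_cancel (1 : H →L[ℂ] H) (a * star a) ▸
      isUnit_one_sub_of_norm_lt_one (x := 1 - a * star a) (by rw [norm_sub_rev]; linarith))
  obtain ⟨q, hq⟩ : IsUnit w := sub_sub_cancel (1 : H →L[ℂ] H) w ▸
    isUnit_one_sub_of_norm_lt_one (x := 1 - w) (by rw [norm_sub_rev]; linarith)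
  have hr : a * w * (↑q⁻¹ * (star a * p)) = 1 := by
    rw [← hq, mul_assoc, ← mul_assoc (q : H →L[ℂ] H), Units.mul_inv, one_mul, ← mul_assoc, hp]
  have hgg' : a * w * star (a * w) = 1 := by
    rw [left_inv_eq_right_inv hgg hr, hr]
  have haN : star a ∈ N := star_mem ha
  refine ⟨a * w, ⟨hgg, hgg'⟩, mul_mem ha ?_, ?_⟩
  · rw [← VonNeumannAlgebra.commutant_commutant N]
    refine VonNeumannAlgebra.mem_commutant_iff.2 fun y hy => ?_
    have c := VonNeumannAlgebra.mem_commutant_iff.1 hy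
    exact (hwc y (show star a * a * y = y * (star a * a) from c _ (mul_mem haN ha))).eq.symm
  · have han : ‖a‖ ≤ 2 := by
      have h := norm_le_norm_add_norm_sub' (star a * a) (1 : H →L[ℂ] H)
      rw [CStarRing.norm_star_mul_self, norm_one] at h
      nlinarith [norm_nonneg a]
    rw [show a * w - a = a * (w - 1) by rw [mul_sub, mul_one]]
    refine (norm_mul_le _ _).trans ?_
    have := mul_le_mul han hw1 (norm_nonneg _) zero_le_two
    linarith

/-- A map of the tower into the unitaries of `N`. -/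
structure IsUMap (K : ℕ → Finset (H →L[ℂ] H)) (N : VonNeumannAlgebra H)
    (v : (H →L[ℂ] H) → H →L[ℂ] H) : Prop where
  unit : ∀ g ∈ carrier K, v g ∈ unitary (H →L[ℂ] H)
  mem : ∀ g ∈ carrier K, v g ∈ N

/-- Multiplicative up to `e` on the tower. -/
def GDefect (K : ℕ → Finset (H →L[ℂ] H)) (v : (H →L[ℂ] H) → H →L[ℂ] H) (e : ℝ) : Prop :=
  ∀ g ∈ carrier K, ∀ h ∈ carrier K, ‖v g * v h - v (g * h)‖ ≤ e

theorem norm_unitary_le [Nontrivial H] {g : H →L[ℂ] H} (hg : g ∈ unitary (H →L[ℂ] H)) :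
    ‖g‖ ≤ 1 := (CStarRing.norm_of_mem_unitary hg).le

/-- One averaging step squares the defect. -/
theorem step [Nontrivial H] (hK : IsTower K) {v : (H →L[ℂ] H) → H →L[ℂ] H} {e : ℝ}
    (hv : IsUMap K N v) (he0 : 0 ≤ e) (he : e ≤ 1 / 8) (hd : GDefect K v e) :
    ∃ v', IsUMap K N v' ∧ GDefect K v' (60 * e ^ 2) ∧
      ∀ g ∈ carrier K, ‖v' g - v g‖ ≤ 3 * e := by
  classical
  have hb : ∀ g ∈ carrier K, ∀ h ∈ carrier K, ‖v (g * h) * star (v h)‖ ≤ 1 := fun g hg h hh =>
    norm_unitary_le (mul_mem (hv.unit _ (hK.carrier_mul hg hh)) (Unitary.star_mem (hv.unit _ hh)))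
  choose! w hw using fun g (hg : g ∈ carrier K) => exists_meanTo hK (hb g hg)
  have hwN : ∀ g ∈ carrier K, w g ∈ N := fun g hg =>
    (hw g hg).mem N fun h hh => mul_mem (hv.mem _ (hK.carrier_mul hg hh)) (star_mem (hv.mem _ hh))
  have hpoint : ∀ g ∈ carrier K, ∀ h ∈ carrier K, ‖v (g * h) * star (v h) - v g‖ ≤ e :=
    fun g hg h hh => by
      have e0 : v (g * h) * star (v h) - v g = (v (g * h) - v g * v h) * star (v h) := by
        rw [sub_mul, mul_assoc, (hv.unit h hh).2, mul_one]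
      rw [e0]
      refine (norm_mul_le _ _).trans ?_
      rw [norm_sub_rev, norm_star]
      exact (mul_le_mul (hd g hg h hh) (norm_unitary_le (hv.unit h hh)) (norm_nonneg _)
        he0).trans (mul_one e).le
  have hwv : ∀ g ∈ carrier K, ‖w g - v g‖ ≤ e := fun g hg =>
    ((hw g hg).sub (MeanTo.const hK (v g))).norm_le hK he0 (hpoint g hg)
  have hws : ∀ g ∈ carrier K, star (w g) = w (star g) := fun g hg => by
    refine ((hw g hg).star.translate hK (hK.carrier_star hg)).unique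
      ((hw _ (hK.carrier_star hg)).congr fun h hh => ?_)
    rw [star_mul, star_star, ← mul_assoc g, (hK.carrier_unit hg).2, one_mul]
  have hw1 : w 1 = 1 := ((hw 1 hK.carrier_one).unique ((MeanTo.const hK 1).congr fun h hh => by
    rw [one_mul, (hv.unit h hh).2]))
  have hwd : ∀ g ∈ carrier K, ∀ k ∈ carrier K, ‖w g * w k - w (g * k)‖ ≤ 4 * e ^ 2 :=
    fun g hg k hk => by
      set α := fun h => v (g * h) * star (v h) with hα
      set β := fun h => v h * star (v (star k * h)) with hβ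
      have hm1 : MeanTo K β (w k) :=
        ((hw k hk).translate hK (hK.carrier_star hk)).congr fun h hh => by
          rw [hβ, ← mul_assoc k, (hK.carrier_unit hk).2, one_mul]
      have hm2 : MeanTo K (fun h => α h * β h) (w (g * k)) :=
        ((hw _ (hK.carrier_mul hg hk)).translate hK (hK.carrier_star hk)).congr fun h hh => by
          rw [hα, hβ, mul_assoc g k, ← mul_assoc k, (hK.carrier_unit hk).2, one_mul,
            mul_assoc (v (g * h)), ← mul_assoc (star (v h)), (hv.unit h hh).1, one_mul]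
      have hm : MeanTo K (fun h => (α h - w g) * (β h - w k)) (w (g * k) - w g * w k) := by
        have h3 := (hm2.sub ((hw g hg).mul_right (w k))).sub
          ((hm1.mul_left (w g)).sub (MeanTo.const hK (w g * w k)))
        rw [sub_self, sub_zero] at h3
        refine h3.congr fun h _ => ?_
        simp only [hα]
        noncomm_ring
      have ha : ∀ h ∈ carrier K, ‖α h - w g‖ ≤ 2 * e := fun h hh => by
        refine (norm_sub_le_norm_sub_add_norm_sub _ (v g) _).trans ?_
        rw [norm_sub_rev (v g), two_mul]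
        exact add_le_add (hpoint g hg h hh) (hwv g hg)
      have hb' : ∀ h ∈ carrier K, ‖β h - w k‖ ≤ 2 * e := fun h hh => by
        have hkh := hK.carrier_mul (hK.carrier_star hk) hh
        have := hpoint k hk _ hkh
        rw [← mul_assoc, (hK.carrier_unit hk).2, one_mul] at this
        refine (norm_sub_le_norm_sub_add_norm_sub _ (v k) _).trans ?_
        rw [norm_sub_rev (v k), two_mul]
        exact add_le_add this (hwv k hk)
      rw [norm_sub_rev]
      refine hm.norm_le hK (by positivity) fun h hh => (norm_mul_le _ _).trans ?_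
      calc _ ≤ 2 * e * (2 * e) := mul_le_mul (ha h hh) (hb' h hh) (norm_nonneg _) (by positivity)
        _ = 4 * e ^ 2 := by ring
  have he2 : 4 * e ^ 2 ≤ 1 / 4 := by nlinarith
  have hsm : ∀ g ∈ carrier K, ∃ g' ∈ unitary (H →L[ℂ] H), g' ∈ N ∧ ‖g' - w g‖ ≤ 4 * (4 * e ^ 2) :=
    fun g hg => by
      refine exists_unitary_mem (hwN g hg) he2 ?_ ?_
      · have h := hwd _ (hK.carrier_star hg) g hg
        rwa [← hws g hg, (hK.carrier_unit hg).1, hw1] at h
      · have h := hwd g hg _ (hK.carrier_star hg)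
        rwa [← hws g hg, (hK.carrier_unit hg).2, hw1] at h
  choose! v' hu hN hn using hsm
  refine ⟨v', ⟨hu, hN⟩, fun g hg h hh => ?_, fun g hg => ?_⟩
  · have hgh := hK.carrier_mul hg hh
    have e0 : v' g * v' h - v' (g * h) = (v' g - w g) * v' h + w g * (v' h - w h)
        + (w g * w h - w (g * h)) + (w (g * h) - v' (g * h)) := by noncomm_ring
    have hwn : ‖w g‖ ≤ 1 := (hw g hg).norm_le hK zero_le_one (hb g hg)
    rw [e0]
    refine (norm_add₃_le ..).trans ?_
    have t1 : ‖(v' g - w g) * v' h + w g * (v' h - w h)‖ ≤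
        4 * (4 * e ^ 2) * 1 + 1 * (4 * (4 * e ^ 2)) :=
      (norm_add_le _ _).trans (add_le_add
        ((norm_mul_le _ _).trans (mul_le_mul (hn g hg) (norm_unitary_le (hu h hh)) (norm_nonneg _)
          (by positivity)))
        ((norm_mul_le _ _).trans (mul_le_mul hwn (hn h hh) (norm_nonneg _) zero_le_one)))
    have t2 := hn _ hgh
    rw [norm_sub_rev] at t2
    linarith [hwd g hg h hh, sq_nonneg e]
  · refine (norm_sub_le_norm_sub_add_norm_sub _ (w g) _).trans
      ((add_le_add (hn g hg) (hwv g hg)).trans ?_)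
    nlinarith

/-- A map into the unitaries of `N` that is almost multiplicative is near a multiplicative one. -/
theorem exists_hom [Nontrivial H] (hK : IsTower K) {v : (H →L[ℂ] H) → H →L[ℂ] H} {e : ℝ}
    (hv : IsUMap K N v) (he0 : 0 ≤ e) (he : e ≤ 1 / 120) (hd : GDefect K v e) :
    ∃ θ, IsUMap K N θ ∧ (∀ g ∈ carrier K, ∀ h ∈ carrier K, θ (g * h) = θ g * θ h) ∧
      ∀ g ∈ carrier K, ‖θ g - v g‖ ≤ 6 * e := by
  let Good : ℕ → ((H →L[ℂ] H) → H →L[ℂ] H) → Prop := fun n w =>
    IsUMap K N w ∧ GDefect K w (e * (1 / 2) ^ n)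
  have nx : ∀ n w, Good n w → ∃ w', Good (n + 1) w' ∧
      ∀ g ∈ carrier K, ‖w' g - w g‖ ≤ 3 * (e * (1 / 2) ^ n) := fun n w ⟨h1, h2⟩ => by
    have hp : (1 / 2 : ℝ) ^ n ≤ 1 := pow_le_one₀ (by norm_num) (by norm_num)
    have hp0 : 0 ≤ e * (1 / 2 : ℝ) ^ n := by positivity
    have hle : e * (1 / 2 : ℝ) ^ n ≤ 1 / 120 := (mul_le_of_le_one_right he0 hp).trans he
    obtain ⟨w', a, b, c⟩ := step hK h1 hp0 (by linarith) h2
    refine ⟨w', ⟨a, fun g hg h hh => (b g hg h hh).trans ?_⟩, c⟩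
    rw [show e * (1 / 2 : ℝ) ^ (n + 1) = e * (1 / 2) ^ n / 2 by ring]
    nlinarith [mul_le_mul_of_nonneg_right hle hp0]
  choose! nxt hn1 hn2 using nx
  let seq : (n : ℕ) → {w // Good n w} := fun n =>
    Nat.rec (motive := fun n => {w // Good n w}) ⟨v, hv, by simpa using hd⟩
      (fun n p => ⟨nxt n p.1, hn1 n p.1 p.2⟩) n
  have hdist : ∀ g ∈ carrier K, ∀ n,
      dist ((seq n).1 g) ((seq (n + 1)).1 g) ≤ 6 * e / 2 / 2 ^ n := fun g hg n => by
    rw [dist_comm, dist_eq_norm]
    refine (hn2 n (seq n).1 (seq n).2 g hg).trans_eq ?_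
    rw [one_div, inv_pow]
    field_simp
    ring
  have hlim : ∀ g ∈ carrier K, ∃ z, Tendsto (fun n => (seq n).1 g) atTop (𝓝 z) := fun g hg =>
    cauchySeq_tendsto_of_complete (cauchySeq_of_le_geometric_two (hdist g hg))
  choose! θ hθ using hlim
  refine ⟨θ, ⟨fun g hg => ?_, fun g hg => ?_⟩, fun g hg h hh => ?_, fun g hg => ?_⟩
  · refine ⟨tendsto_nhds_unique ((hθ g hg).star.mul (hθ g hg)) ?_,
      tendsto_nhds_unique ((hθ g hg).mul (hθ g hg).star) ?_⟩
    · exact tendsto_const_nhds.congr fun n => ((seq n).2.1.unit g hg).1.symm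
    · exact tendsto_const_nhds.congr fun n => ((seq n).2.1.unit g hg).2.symm
  · exact (Vale.Agent.P082.isClosed_alg N).mem_of_tendsto (hθ g hg)
      (Eventually.of_forall fun n => (seq n).2.1.mem g hg)
  · have hz : Tendsto (fun n : ℕ => e * (1 / 2 : ℝ) ^ n) atTop (𝓝 0) := by
      simpa using (tendsto_pow_atTop_nhds_zero_of_lt_one (by norm_num : (0 : ℝ) ≤ 1 / 2)
        (by norm_num)).const_mul e
    have hl : Tendsto (fun n => ‖(seq n).1 g * (seq n).1 h - (seq n).1 (g * h)‖) atTop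
        (𝓝 ‖θ g * θ h - θ (g * h)‖) :=
      (((hθ g hg).mul (hθ h hh)).sub (hθ _ (hK.carrier_mul hg hh))).norm
    exact (sub_eq_zero.1 (norm_le_zero_iff.1
      (le_of_tendsto_of_tendsto' hl hz fun n => (seq n).2.2 g hg h hh))).symm
  · rw [norm_sub_rev, ← dist_eq_norm]
    exact dist_le_of_le_geometric_two_of_tendsto₀ (hdist g hg) (hθ g hg)

end Vale.Agent.P096.III.Conj
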