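import Vale.Agent.P096.III.Conj.Centre
import Vale.Agent.P078.General.Weak

/-!
# P096, conjugation: building towers

Products of commuting symmetries form a tower; the product of two commuting towers is a tower; on
a separable space every abelian algebra has a tower with the same commutant.
-/

namespace Vale.Agent.P096.III.Conj

open scoped Topology
open Filter

universe u

variable {H : Type u} [NormedAddCommGroup H] [InnerProductSpace ℂ H] [CompleteSpace H]

open Classical in
/-- All products of the first `n` symmetries. -/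
noncomputable def symTower (s : ℕ → H →L[ℂ] H) : ℕ → Finset (H →L[ℂ] H)
  | 0 => {1}
  | n + 1 => symTower s n ∪ (symTower s n).image (fun a => s n * a)

variable {s : ℕ → H →L[ℂ] H}

theorem commute_symTower (hc : ∀ i j, Commute (s i) (s j)) (i : ℕ) :
    ∀ n, ∀ a ∈ symTower s n, Commute (s i) a := by
  intro n
  induction n with
  | zero => intro a ha; simp [symTower] at ha; subst ha; exact Commute.one_right _
  | succ n ih =>
    intro a ha
    simp only [symTower, Finset.mem_union, Finset.mem_image] at ha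
    rcases ha with ha | ⟨b, hb, rfl⟩
    · exact ih a ha
    · exact (hc i n).mul_right (ih b hb)

theorem isTower_symTower (hs : ∀ i, IsSelfAdjoint (s i)) (hs2 : ∀ i, s i * s i = 1)
    (hc : ∀ i j, Commute (s i) (s j)) : IsTower (symTower s) := by
  have key : ∀ n, 1 ∈ symTower s n ∧ (∀ a ∈ symTower s n, ∀ b ∈ symTower s n, a * b ∈ symTower s n) ∧
      ∀ a ∈ symTower s n, star a ∈ symTower s n ∧ a ∈ unitary (H →L[ℂ] H) := by
    intro n
    induction n with
    | zero =>
      simp only [symTower, Finset.mem_singleton]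
      exact ⟨trivial, fun a ha b hb => by rw [ha, hb, one_mul],
        fun a ha => by rw [ha]; exact ⟨star_one _, one_mem _⟩⟩
    | succ n ih =>
      obtain ⟨h1, hm, hsu⟩ := ih
      have hcm := commute_symTower hc n n
      simp only [symTower, Finset.mem_union, Finset.mem_image]
      refine ⟨Or.inl h1, ?_, ?_⟩
      · rintro a (ha | ⟨a, ha, rfl⟩) b (hb | ⟨b, hb, rfl⟩)
        · exact Or.inl (hm a ha b hb)
        · exact Or.inr ⟨a * b, hm a ha b hb, by rw [← mul_assoc, ← mul_assoc, (hcm a ha).eq]⟩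
        · exact Or.inr ⟨a * b, hm a ha b hb, (mul_assoc _ _ _).symm⟩
        · refine Or.inl ?_
          rw [show s n * a * (s n * b) = s n * (a * s n) * b by noncomm_ring, ← (hcm a ha).eq,
            ← mul_assoc (s n) (s n), hs2, one_mul]
          exact hm a ha b hb
      · rintro a (ha | ⟨a, ha, rfl⟩)
        · exact ⟨Or.inl (hsu a ha).1, (hsu a ha).2⟩
        · refine ⟨Or.inr ⟨star a, (hsu a ha).1, ?_⟩,
            mul_mem ⟨by rw [(hs n).star_eq, hs2], by rw [(hs n).star_eq, hs2]⟩ (hsu a ha).2⟩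
          rw [star_mul, (hs n).star_eq]
          exact (hcm _ (hsu a ha).1).eq
  refine ⟨fun n => (key n).1, fun n => (key n).2.1, fun n a ha => ((key n).2.2 a ha).1,
    fun n a ha => ((key n).2.2 a ha).2, fun n a ha => ?_⟩
  simp only [symTower, Finset.mem_union]
  exact Or.inl ha

theorem mem_symTower (hs : ∀ i, IsSelfAdjoint (s i)) (hs2 : ∀ i, s i * s i = 1)
    (hc : ∀ i j, Commute (s i) (s j)) (i : ℕ) : s i ∈ carrier (symTower s) := by
  refine ⟨i + 1, ?_⟩
  simp only [symTower, Finset.mem_union, Finset.mem_image]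
  exact Or.inr ⟨1, (isTower_symTower hs hs2 hc).one_mem i, mul_one _⟩

theorem symTower_mem {A : VonNeumannAlgebra H} (hA : ∀ i, s i ∈ A) :
    ∀ g ∈ carrier (symTower s), g ∈ A := by
  rintro g ⟨n, hg⟩
  induction n generalizing g with
  | zero => simp [symTower] at hg; subst hg; exact one_mem A
  | succ n ih =>
    simp only [symTower, Finset.mem_union, Finset.mem_image] at hg
    rcases hg with hg | ⟨b, hb, rfl⟩
    · exact ih g hg
    · exact mul_mem (hA n) (ih b hb)

open scoped Classical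

/-- The products of two towers. -/
noncomputable def towerMul (K L : ℕ → Finset (H →L[ℂ] H)) : ℕ → Finset (H →L[ℂ] H) :=
  fun n => Finset.image₂ (· * ·) (K n) (L n)

theorem isTower_towerMul {K L : ℕ → Finset (H →L[ℂ] H)} (hK : IsTower K) (hL : IsTower L)
    (hc : ∀ a ∈ carrier K, ∀ b ∈ carrier L, Commute a b) : IsTower (towerMul K L) := by
  refine ⟨fun n => Finset.mem_image₂.2 ⟨1, hK.one_mem n, 1, hL.one_mem n, one_mul _⟩,
    fun n x hx y hy => ?_, fun n x hx => ?_, fun n x hx => ?_, fun n x hx => ?_⟩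
  all_goals obtain ⟨a, ha, b, hb, rfl⟩ := Finset.mem_image₂.1 hx
  · obtain ⟨a', ha', b', hb', rfl⟩ := Finset.mem_image₂.1 hy
    refine Finset.mem_image₂.2 ⟨a * a', hK.mul_mem n a ha a' ha', b * b', hL.mul_mem n b hb b' hb', ?_⟩
    exact ((hc a' ⟨n, ha'⟩ b ⟨n, hb⟩).symm.mul_mul_mul_comm a b').symm
  · refine Finset.mem_image₂.2 ⟨star a, hK.star_mem n a ha, star b, hL.star_mem n b hb, ?_⟩
    rw [star_mul]
    exact (hc _ ⟨n, hK.star_mem n a ha⟩ _ ⟨n, hL.star_mem n b hb⟩).eq
  · exact mul_mem (hK.unit n a ha) (hL.unit n b hb)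
  · exact Finset.mem_image₂.2 ⟨a, hK.mono n a ha, b, hL.mono n b hb, rfl⟩

theorem left_mem_towerMul {K L : ℕ → Finset (H →L[ℂ] H)} (hL : IsTower L) {a : H →L[ℂ] H}
    (ha : a ∈ carrier K) : a ∈ carrier (towerMul K L) := by
  obtain ⟨n, ha⟩ := ha
  exact ⟨n, Finset.mem_image₂.2 ⟨a, ha, 1, hL.one_mem n, mul_one _⟩⟩

theorem right_mem_towerMul {K L : ℕ → Finset (H →L[ℂ] H)} (hK : IsTower K) {b : H →L[ℂ] H}
    (hb : b ∈ carrier L) : b ∈ carrier (towerMul K L) := by
  obtain ⟨n, hb⟩ := hb
  exact ⟨n, Finset.mem_image₂.2 ⟨1, hK.one_mem n, b, hb, one_mul _⟩⟩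

theorem towerMul_mem {K L : ℕ → Finset (H →L[ℂ] H)} {A : VonNeumannAlgebra H}
    (hK : ∀ g ∈ carrier K, g ∈ A) (hL : ∀ g ∈ carrier L, g ∈ A) :
    ∀ g ∈ carrier (towerMul K L), g ∈ A := by
  rintro g ⟨n, hg⟩
  obtain ⟨a, ha, b, hb, rfl⟩ := Finset.mem_image₂.1 hg
  exact mul_mem (hK a ⟨n, ha⟩) (hL b ⟨n, hb⟩)

/-- On a separable space an abelian algebra has a tower with the same commutant. -/
theorem exists_abelian_tower [TopologicalSpace.SeparableSpace H] (Z : VonNeumannAlgebra H)
    (hZ : ∀ a ∈ Z, ∀ b ∈ Z, Commute a b) :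
    ∃ L, IsTower L ∧ (∀ g ∈ carrier L, g ∈ Z) ∧
      ∀ y, (∀ g ∈ carrier L, Commute y g) → ∀ z ∈ Z, Commute y z := by
  haveI : SecondCountableTopology H := UniformSpace.secondCountable_of_separable H
  obtain ⟨v, hv⟩ := TopologicalSpace.exists_dense_seq H
  let P := {p : H →L[ℂ] H // p ∈ Z ∧ IsStarProjection p}
  let φ : P → ℕ → H := fun p m => p.1 (v m)
  obtain ⟨c, hcc, hdense⟩ :=
    TopologicalSpace.exists_countable_dense (Set.range φ)
  haveI : Nonempty P := ⟨⟨0, zero_mem Z, IsStarProjection.zero (H →L[ℂ] H)⟩⟩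
  haveI : Nonempty (Set.range φ) := ⟨⟨_, ⟨Classical.arbitrary P, rfl⟩⟩⟩
  obtain ⟨e, he⟩ := hcc.exists_eq_range hdense.nonempty
  choose p hp using fun n => (e n).2
  let s : ℕ → H →L[ℂ] H := fun n => 1 - 2 * (p n).1
  have hs : ∀ n, IsSelfAdjoint (s n) := fun n => by
    rw [isSelfAdjoint_iff]
    simp only [s, two_mul, star_sub, star_one, star_add, (p n).2.2.isSelfAdjoint.star_eq]
  have hs2 : ∀ n, s n * s n = 1 := fun n => by
    simp only [s, two_mul, mul_sub, sub_mul, one_mul, mul_one, add_mul, mul_add,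
      (p n).2.2.isIdempotentElem.eq]
    abel
  have hsc : ∀ i j, Commute (s i) (s j) := fun i j => by
    show s i * s j = s j * s i
    simp only [s, two_mul, mul_sub, sub_mul, one_mul, mul_one, add_mul, mul_add,
      (hZ _ (p i).2.1 _ (p j).2.1).eq]
    abel
  refine ⟨symTower s, isTower_symTower hs hs2 hsc,
    symTower_mem fun n => sub_mem (one_mem Z) (by rw [two_mul]; exact add_mem (p n).2.1 (p n).2.1),
    fun y hy z hz => ?_⟩
  have hyp : ∀ n, Commute y (p n).1 := fun n => by
    have h := hy _ (mem_symTower hs hs2 hsc n)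
    have e2 : (p n).1 = (2⁻¹ : ℂ) • (1 - s n) := by
      simp only [s, sub_sub_cancel, two_mul]
      module
    rw [e2]
    exact ((Commute.one_right y).sub_right h).smul_right _
  refine (Vale.Agent.P078.General.commute_of_commute_proj Z (fun q hq hqp => ?_) hz).symm
  show q * y = y * q
  refine DFunLike.coe_injective (DenseRange.equalizer hv (q * y).continuous (y * q).continuous
    (funext fun m => ?_))
  have hclo : (⟨φ ⟨q, hq, hqp⟩, ⟨⟨q, hq, hqp⟩, rfl⟩⟩ : Set.range φ) ∈ closure c := hdense _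
  rw [he] at hclo
  obtain ⟨k, hk, hlim⟩ := mem_closure_iff_seq_limit.1 hclo
  choose i hi using hk
  have hconv : ∀ w, Tendsto (fun n => (p (i n)).1 w) atTop (𝓝 (q w)) := by
    have hm : ∀ m, Tendsto (fun n => (p (i n)).1 (v m)) atTop (𝓝 (q (v m))) := fun m => by
      have h1 := (((continuous_apply m).comp continuous_subtype_val).tendsto _).comp hlim
      refine h1.congr fun n => ?_
      show (k n).1 m = _
      rw [← hi n, ← hp (i n)]
    intro w
    rw [Metric.tendsto_atTop]
    intro ε hε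
    obtain ⟨m, hwm⟩ := hv.exists_dist_lt w (show 0 < ε / 3 by linarith)
    obtain ⟨n₀, hn₀⟩ := Metric.tendsto_atTop.1 (hm m) (ε / 3) (by linarith)
    refine ⟨n₀, fun n hn => ?_⟩
    have a1 : dist ((p (i n)).1 w) ((p (i n)).1 (v m)) ≤ dist w (v m) := by
      rw [dist_eq_norm, dist_eq_norm, ← map_sub]
      exact ((p (i n)).1.le_opNorm _).trans
        (mul_le_of_le_one_left (norm_nonneg _) (p (i n)).2.2.norm_le)
    have a2 : dist (q (v m)) (q w) ≤ dist (v m) w := by
      rw [dist_eq_norm, dist_eq_norm, ← map_sub]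
      exact (q.le_opNorm _).trans (mul_le_of_le_one_left (norm_nonneg _) hqp.norm_le)
    have := dist_triangle4 ((p (i n)).1 w) ((p (i n)).1 (v m)) (q (v m)) (q w)
    rw [dist_comm (v m) w] at a2
    linarith [hn₀ n hn]
  refine tendsto_nhds_unique (hconv (y (v m))) (((y.continuous.tendsto _).comp (hconv (v m))).congr fun n => ?_)
  exact congrArg (fun T : H →L[ℂ] H => T (v m)) (hyp (i n)).eq

end Vale.Agent.P096.III.Conj
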